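import Vale.Agent.P260.H553.Lift
import Mathlib.Topology.Covering.Quotient
import Mathlib.Topology.LocallyConstant.Basic

/-!
# P260, block [A4] : non exact top cocycles on the finite covers of a closed aspherical manifold
-/

set_option linter.all false

open Set Filter Topology

namespace Vale.Agent.P260.H553

open Vale.Agent.P216 Vale.Agent.P216.Ch2
open Vale.Agent.P216.D246 Vale.Agent.P216.Ch2.D246 Vale.Agent.P216.Ch2.D246.Cub

open Vale.Agent.P216.AS Vale.Agent.P216.Ch2.AS Vale.Agent.P216.H901 Vale.Agent.P216.Ch2.H901 Vale.Agent.P216.H83 Vale.Agent.P216.Ch2.H83 Vale.Agent.P216.Sl Vale.Agent.P216.PS Vale.Agent.P216.H133C Vale.Agent.P216.Ch2.H133C Vale.Agent.P216.C313 Vale.Agent.P216.Ch2.C313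

/-- The open cube. -/
def UU {M : Type} [TopologicalSpace M] {n : ℕ} (c : Cub M n) : Set M := {x | x ∈ c.D ∧ ‖c.φ x‖ < 2}

variable {M X Γ : Type} [MetricSpace M] [CompactSpace M] [TopologicalSpace X] [Group Γ]
  [MulAction Γ X] {n : ℕ} {k : Type} [Field k] {p : X → M}

variable (e : Hr (tr (Unit × (Fin n → ℝ))) (on k) (cbE n (univ : Set Unit))
    (bdE n univ ∅) n ≃ₗ[k] k)

/-- A section of the orientation bundle over `X`. -/
structure Sg (p : X → M) (h2 : Ok k) (σ : Cub M n → X → kˣ) : Prop where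
  loc : ∀ c x, p x ∈ UU c → ∀ᶠ x' in 𝓝 x, σ c x' = σ c x
  trn : ∀ c c' x, p x ∈ UU c → p x ∈ UU c' → ∃ t : kˣ, Trn e h2 c c' (p x) t ∧
    σ c x = t * σ c' x

theorem exists_sg [SimplyConnectedSpace X] [LocallyPathConnectedSpace X] (h2 : Ok k)
    (lc : LocEuc M n) (hp : Continuous p) : ∃ σ : Cub M n → X → kˣ, Sg e p h2 σ := by
  classical
  have hex : ∀ (i j : Cub M n) (b : M), b ∈ UU i ∩ UU j → ∃ t : kˣ, Trn e h2 i j b t := by
    rintro i j b ⟨h1, h3⟩
    obtain ⟨t, ht⟩ := exists_trn e h2 h1.1 h1.2 h3.1 h3.2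
    exact ⟨Units.mk0 t (trn_ne e h2 h1.1 h1.2 h3.1 h3.2 ht), ht⟩
  let T : Cub M n → Cub M n → M → kˣ := fun i j b =>
    if h : ∃ t : kˣ, Trn e h2 i j b t then h.choose else 1
  have hT : ∀ (i j : Cub M n) (b : M), b ∈ UU i ∩ UU j → Trn e h2 i j b (T i j b : k) := by
    intro i j b hb
    have h := hex i j b hb
    have e1 : T i j b = h.choose := dif_pos h
    rw [e1]
    exact h.choose_spec
  have hTu : ∀ (i j : Cub M n) (b : M) (t : kˣ), b ∈ UU i ∩ UU j → Trn e h2 i j b (t : k) →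
      T i j b = t := fun i j b t hb ht => Units.ext (trn_uniq e h2 (hT i j b hb) ht)
  obtain ⟨σ, hσ1, hσ2⟩ := exists_section (B := X) (G := kˣ) (fun c : Cub M n => p ⁻¹' UU c)
    (fun c => c.open_int.preimage hp)
    (fun b => by
      obtain ⟨c, hc, hc'⟩ := lc (p b)
      exact ⟨c, hc, by change ‖c.φ (p b)‖ < 2; rw [hc', norm_zero]; exact two_pos⟩)
    (fun i j b => T i j (p b))
    (fun i j b hb => by
      obtain ⟨w, η, hη, hb', hs, hc, hw, ht⟩ := hT i j (p b) hb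
      have hO := isOpen_box (c := j) hb'
      refine hp.continuousAt.eventually
        (p := fun y => T i j y = T i j (p b)) ?_
      filter_upwards [hO.mem_nhds ⟨hc, hw⟩, i.open_int.mem_nhds hb.1, j.open_int.mem_nhds hb.2]
        with b' h1 h3 h4
      exact hTu i j b' _ ⟨h3, h4⟩ ⟨w, η, hη, hb', hs, h1.1, h1.2, ht⟩)
    (fun i b hb => hTu i i (p b) 1 ⟨hb, hb⟩ (trn_self e h2 hb.1 hb.2))
    (fun i j l b hb => (hTu i l (p b) _ ⟨hb.1.1, hb.2⟩ (by
      rw [Units.val_mul]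
      exact trn_trans e h2 (hT i j (p b) hb.1) (hT j l (p b) ⟨hb.1.2, hb.2⟩))).symm)
  exact ⟨σ, fun c x hx => hσ1 c x hx, fun c c' x hx hx' =>
    ⟨T c c' (p x), hT c c' (p x) ⟨hx, hx'⟩, hσ2 c c' x ⟨hx, hx'⟩⟩⟩

variable {e}

/-- The monodromy. -/
theorem Sg.mono [PreconnectedSpace X] [Nonempty X] [ContinuousConstSMul Γ X] {h2 : Ok k}
    {σ : Cub M n → X → kˣ} (hσ : Sg e p h2 σ) (lc : LocEuc M n) (hp : Continuous p)
    (hpG : ∀ (g : Γ) (x : X), p (g • x) = p x) :
    ∃ χ : Γ →* kˣ, ∀ (g : Γ) (c : Cub M n) (x : X), p x ∈ UU c → σ c x = χ g * σ c (g • x) := by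
  classical
  choose C hC hC0 using lc
  have hCU : ∀ m, m ∈ UU (C m) := fun m => ⟨hC m, by rw [hC0, norm_zero]; exact two_pos⟩
  let ρ : Γ → X → kˣ := fun g x => σ (C (p x)) x * (σ (C (p x)) (g • x))⁻¹
  have h1 : ∀ (g : Γ) (c : Cub M n) (x : X), p x ∈ UU c → σ c x * (σ c (g • x))⁻¹ = ρ g x := by
    intro g c x hx
    obtain ⟨t, ht, e1⟩ := hσ.trn c (C (p x)) x hx (hCU _)
    obtain ⟨s, hs, e2⟩ := hσ.trn c (C (p x)) (g • x) (by rwa [hpG]) (by rw [hpG]; exact hCU _)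
    rw [hpG] at hs
    have e3 : t = s := Units.ext (trn_uniq e h2 ht hs)
    rw [e1, e2, e3, mul_inv, mul_mul_mul_comm, mul_inv_cancel, one_mul]
  have h3 : ∀ g, IsLocallyConstant (ρ g) := by
    intro g
    rw [IsLocallyConstant.iff_eventually_eq]
    intro x
    have i1 : ∀ᶠ x' in 𝓝 x, p x' ∈ UU (C (p x)) :=
      hp.continuousAt.eventually ((C (p x)).open_int.mem_nhds (hCU (p x)))
    have i2 := hσ.loc (C (p x)) x (hCU _)
    have i3 := (continuous_const_smul g).continuousAt.eventually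
      (hσ.loc (C (p x)) (g • x) (by rw [hpG]; exact hCU _))
    filter_upwards [i1, i2, i3] with x' j1 j2 j3
    rw [← h1 g (C (p x)) x' j1, j2, j3]
  obtain ⟨x₀⟩ : Nonempty X := inferInstance
  have h4 : ∀ g x, ρ g x = ρ g x₀ := fun g x => (h3 g).apply_eq_of_preconnectedSpace x x₀
  refine ⟨MonoidHom.mk' (fun g => ρ g x₀) fun a b => ?_, fun g c x hx => ?_⟩
  · have j1 := h1 (a * b) (C (p x₀)) x₀ (hCU _)
    have j2 := h1 b (C (p x₀)) x₀ (hCU _)
    have j3 := h1 a (C (p x₀)) (b • x₀) (by rw [hpG]; exact hCU _)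
    rw [h4 a (b • x₀)] at j3
    rw [← j1, ← j2, ← j3, mul_smul]
    rw [mul_comm (σ (C (p x₀)) (b • x₀) * _), mul_assoc, ← mul_assoc (σ (C (p x₀)) (b • x₀))⁻¹,
      inv_mul_cancel, one_mul]
  · change σ c x = ρ g x₀ * σ c (g • x)
    rw [← h4 g x, ← h1 g c x hx, inv_mul_cancel_right]

/-- **(A4)**, general form. -/
theorem exists_Hp [SimplyConnectedSpace X] [LocallyPathConnectedSpace X] [Finite k] (hn : 1 ≤ n)
    (lc : LocEuc M n) (hp : IsQuotientCoveringMap p Γ) :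
    ∃ Hp : Subgroup Γ, Hp.FiniteIndex ∧ ∀ H ≤ Hp, ∀ (N : Type) [MetricSpace N] [CompactSpace N]
      (r : X → N), IsQuotientCoveringMap r H →
      ∃ w : List N → k, Nrm w ∧ CocL (univ : Set N) n w ∧ ¬ ExL (univ : Set N) n w := by
  classical
  obtain ⟨e⟩ := cube_equiv (k := k) (ok k) n
  haveI : ContinuousConstSMul Γ X := hp.toContinuousConstSMul
  have h2 : Ok k := ok k
  obtain ⟨σ, hσ⟩ := exists_sg e h2 lc hp.continuous
  have hpG : ∀ (g : Γ) (x : X), p (g • x) = p x := fun g x => hp.map_smul g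
  obtain ⟨χ, hχ⟩ := hσ.mono lc hp.continuous hpG
  haveI : Finite kˣ := inferInstance
  refine ⟨χ.ker, inferInstance, fun H hH N _ _ r hr => ?_⟩
  -- the map `N → M`
  obtain ⟨sec, hsec⟩ := hr.surjective.hasRightInverse
  let π : N → M := fun y => p (sec y)
  have hsx : ∀ x : X, ∃ h : Γ, h ∈ H ∧ h • x = sec (r x) := by
    intro x
    obtain ⟨h, hh⟩ := hr.apply_eq_iff_mem_orbit.1 (hsec (r x))
    exact ⟨h, h.2, hh⟩
  have hπ : ∀ x, π (r x) = p x := by
    intro x
    obtain ⟨h, -, hh⟩ := hsx x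
    change p (sec (r x)) = p x
    rw [← hh, hpG]
  have hinv : ∀ (c : Cub M n) (x : X), p x ∈ UU c → σ c (sec (r x)) = σ c x := by
    intro c x hx
    obtain ⟨h, hh, hh'⟩ := hsx x
    have h3 := hχ h c x hx
    have h4 : χ h = 1 := hH hh
    rw [h4, one_mul] at h3
    rw [← hh', h3]
  have hrl : IsLocalHomeomorph r := hr.isCoveringMap.isLocalHomeomorph
  have hpl : IsLocalHomeomorph p := hp.isCoveringMap.isLocalHomeomorph
  have locN : LocP (M := N) (n := n) fun d => ∃ c, Over π d c := by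
    intro b
    obtain ⟨e1, h1, h1'⟩ := hrl (sec b)
    obtain ⟨e2, h3, h3'⟩ := hpl (sec b)
    have hb1 : e1 (sec b) = b := by rw [← h1']; exact hsec b
    have hbs : e1.symm b = sec b := by
      rw [← hb1, e1.left_inv h1]
      rw [hb1]
    have hb : b ∈ (e1.symm.trans e2).source := by
      rw [OpenPartialHomeomorph.trans_source]
      refine ⟨?_, ?_⟩
      · rw [← hb1]
        exact e1.map_source h1
      · change e1.symm b ∈ e2.source
        rw [hbs]
        exact h3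
    obtain ⟨d, c, i1, i2, i3⟩ := exists_over lc (π := π) (e1.symm.trans e2) (fun y hy => by
      rw [OpenPartialHomeomorph.trans_source] at hy
      have hy1 : y ∈ e1.target := hy.1
      change e2 (e1.symm y) = π y
      have hy2 : r (e1.symm y) = y := by
        rw [h1']
        exact e1.right_inv hy1
      conv_rhs => rw [← hy2]
      rw [hπ, h3']) hb
    exact ⟨d, ⟨c, i1⟩, i2, i3⟩
  -- local constancy
  have hlocN : ∀ (c : Cub M n) (b : N), π b ∈ UU c →
      ∀ᶠ b' in 𝓝 b, σ c (sec b') = σ c (sec b) := by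
    intro c b hb
    have i1 := hσ.loc c (sec b) hb
    have i2 : ∀ᶠ x' in 𝓝 (sec b), p x' ∈ UU c :=
      hp.continuous.continuousAt.eventually (c.open_int.mem_nhds hb)
    have i3 := (i1.and i2)
    have i4 : r '' {x' | σ c x' = σ c (sec b) ∧ p x' ∈ UU c} ∈ 𝓝 (r (sec b)) :=
      hrl.isOpenMap.image_mem_nhds i3
    rw [hsec b] at i4
    refine mem_of_superset i4 ?_
    rintro _ ⟨x', ⟨j1, j2⟩, rfl⟩
    change σ c (sec (r x')) = σ c (sec b)
    rw [hinv c x' j2, j1]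
  have hUU : ∀ (d : Cub N n) (c : Cub M n), Over π d c → ∀ b ∈ UU d, π b ∈ UU c := by
    intro d c hdc b hb
    exact ⟨hdc.mem hb.1, by rw [hdc.φ_eq hb.1]; exact hb.2⟩
  have hconst : ∀ (d : Cub N n) (c : Cub M n), Over π d c → ∀ b b' : N, b ∈ UU d → b' ∈ UU d →
      σ c (sec b) = σ c (sec b') := by
    intro d c hdc b b' hb hb'
    letI : TopologicalSpace kˣ := ⊥
    haveI : DiscreteTopology kˣ := ⟨rfl⟩
    refine (preconn_int (c := d)).constant (f := fun b => σ c (sec b)) (fun x hx => ?_) hb hb'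
    apply ContinuousAt.continuousWithinAt
    exact continuousAt_const.congr ((hlocN c x (hUU d c hdc x hx)).mono fun y hy => hy.symm)
  let o : Cub N n → k := fun d =>
    if h : ∃ c, Over π d c then (((σ h.choose (sec (d.ψ 0)))⁻¹ : kˣ) : k) else 0
  have ho : Ori e (fun d : Cub N n => ∃ c, Over π d c) h2 o := by
    refine ⟨fun d hd => ?_, fun d d' hd hd' w η hη hb hs => ?_⟩
    · change (dite _ _ _) ≠ _
      rw [dif_pos hd]
      exact Units.ne_zero _
    · have hz : ∀ c : Cub N n, c.ψ 0 ∈ UU c := fun c => by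
        obtain ⟨h1, h3⟩ := ctr_box (c := c) (v := 0) two_pos h02
        exact ⟨h1, by rw [h3, norm_zero]; exact two_pos⟩
      obtain ⟨h1, h3⟩ := ctr_box (c := d') hη hb
      have h4 : d'.ψ w ∉ d'.A1 w η := notMem_A1 h1 (by rw [h3, sub_self, norm_zero]; exact hη)
      have h5 := of_notMem_A1 fun h => h4 (hs h)
      rw [sub_zero] at h5
      have h5' : d'.ψ w ∈ UU d := h5
      have h6 : d'.ψ w ∈ UU d' := ⟨h1, by rw [h3]; linarith⟩
      have h7 : Trn e h2 d d' (d'.ψ w)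
          (cc e d two_pos h02 (resR subset_rfl hs n (gb e h2 d' hη hb))) :=
        ⟨w, η, hη, hb, hs, h1, by rw [h3, sub_self, norm_zero]; exact hη, rfl⟩
      have hc := hd.choose_spec
      have hc' := hd'.choose_spec
      obtain ⟨t, ht, et⟩ := hσ.trn hd.choose hd'.choose (sec (d'.ψ w))
        (hUU _ _ hc _ h5') (hUU _ _ hc' _ h6)
      have h8 := trn_over e h2 hc hc' h5.1 h5.2 h6.1 h6.2 ht
      have h9 := trn_uniq e h2 h7 h8
      have o1 : o d = (((σ hd.choose (sec (d.ψ 0)))⁻¹ : kˣ) : k) := dif_pos hd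
      have o2 : o d' = (((σ hd'.choose (sec (d'.ψ 0)))⁻¹ : kˣ) : k) := dif_pos hd'
      rw [o1, o2, h9, hconst d _ hc (d.ψ 0) (d'.ψ w) (hz d) h5',
        hconst d' _ hc' (d'.ψ 0) (d'.ψ w) (hz d') h6, et]
      rw [← Units.val_mul]
      congr 1
      rw [mul_inv_rev, mul_assoc, inv_mul_cancel, mul_one]
  obtain ⟨x₀⟩ : Nonempty X := inferInstance
  haveI : Nonempty N := ⟨r x₀⟩
  obtain ⟨ω, hω⟩ := exists_top_ne e h2 hn locN ho
  exact exists_list hω

end Vale.Agent.P260.H553
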