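import Vale.Agent.P260.H553.A4
import Vale.Agent.P260.H388.A7

/-!
# P260, block [A4] : the form used in the assembly of block A
-/

set_option linter.all false

open Set Filter Topology

namespace Vale.Agent.P260.H553

open Vale.Agent.P216 Vale.Agent.P216.Ch2
open Vale.Agent.P216.D246 Vale.Agent.P216.Ch2.D246 Vale.Agent.P216.Ch2.D246.Cub

open Vale.Agent.P216.AS Vale.Agent.P216.Ch2.AS Vale.Agent.P216.H901 Vale.Agent.P216.Ch2.H901 Vale.Agent.P216.H83 Vale.Agent.P216.Ch2.H83 Vale.Agent.P216.Sl Vale.Agent.P216.PS Vale.Agent.P216.H133C Vale.Agent.P216.Ch2.H133C Vale.Agent.P216.C313 Vale.Agent.P216.Ch2.C313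

/-- **(A4)**: for a closed topological manifold `M` of dimension `n ≥ 1` with simply connected
cover `X`, deck group `Γ`, and a finite field `k`, there is a subgroup `Hp` of finite index of `Γ`
such that for all `H ≤ Hp` the quotient `X / H` (if it is compact) has a non exact top cocycle. -/
theorem a4 {n : ℕ} (hn : 1 ≤ n) {M X Γ : Type} [TopologicalSpace M] [T2Space M] [CompactSpace M]
    [ChartedSpace (EuclideanSpace ℝ (Fin n)) M] [TopologicalSpace X] [SimplyConnectedSpace X]
    [Group Γ] [MulAction Γ X] {p : X → M} (hp : IsQuotientCoveringMap p Γ) (k : Type) [Field k]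
    [Finite k] : ∃ Hp : Subgroup Γ, Hp.FiniteIndex ∧ ∀ H ≤ Hp, ∀ (N : Type) [MetricSpace N]
      [CompactSpace N] (r : X → N), IsQuotientCoveringMap r H →
      ∃ w : List N → k, Nrm w ∧ CocL (univ : Set N) n w ∧ ¬ ExL (univ : Set N) n w := by
  haveI : SecondCountableTopology M :=
    ChartedSpace.secondCountable_of_sigmaCompact (EuclideanSpace ℝ (Fin n)) M
  haveI : TopologicalSpace.MetrizableSpace M := inferInstance
  letI : MetricSpace M := TopologicalSpace.metrizableSpaceMetric M
  letI : ChartedSpace (EuclideanSpace ℝ (Fin n)) X :=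
    A7.pullCharts hp.isCoveringMap.isLocalHomeomorph
  haveI : LocallyPathConnectedSpace X :=
    ChartedSpace.locallyPathConnectedSpace (EuclideanSpace ℝ (Fin n)) X
  have hE : Module.finrank ℝ (EuclideanSpace ℝ (Fin n)) = n := by simp
  have lc : LocEuc M n := hE ▸ D907.cub (EuclideanSpace ℝ (Fin n)) M
  exact exists_Hp hn lc hp

/-- The form used by block [A8]. -/
theorem a4_four {M X Γ : Type} [TopologicalSpace M] [T2Space M] [CompactSpace M]
    [ChartedSpace (EuclideanSpace ℝ (Fin 4)) M] [TopologicalSpace X] [ContractibleSpace X]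
    [Group Γ] [MulAction Γ X] {p : X → M} (hp : IsQuotientCoveringMap p Γ) (q : ℕ)
    [Fact q.Prime] : ∃ Hp : Subgroup Γ, Hp.FiniteIndex ∧ ∀ H ≤ Hp, H.FiniteIndex →
      ∀ (N : Type) [MetricSpace N] [CompactSpace N] [ConnectedSpace N]
      [ChartedSpace (EuclideanSpace ℝ (Fin 4)) N] (r : X → N), IsQuotientCoveringMap r H →
      ∃ w : List N → ZMod q, CocL (univ : Set N) 4 w ∧ ¬ ExL (univ : Set N) 4 w := by
  haveI : Finite (ZMod q) := inferInstance
  obtain ⟨Hp, h1, h2⟩ := a4 (n := 4) (by norm_num) hp (ZMod q)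
  refine ⟨Hp, h1, fun H hH _ N _ _ _ _ r hr => ?_⟩
  obtain ⟨w, -, hw, hw'⟩ := h2 H hH N r hr
  exact ⟨w, hw, hw'⟩

end Vale.Agent.P260.H553
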