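import Vale.Agent.P260.H553.NL

/-!
P260, theorem T4: block NL, `2 h¹ ≤ h² + 1` for a group which modulo all its normal subgroups of
`q`-power index is a product `(ℤ/q)² × W`.
-/

namespace Vale.Agent.P260.H553

open scoped commutatorElement
open Multiplicative

/-- `dim H¹` is the dimension of the space of homomorphisms -/
theorem hd_one (q : ℕ) [Fact q.Prime] (H : Type) [Group H] :
    hd q H 1 = Module.finrank (ZMod q) (Additive H →+ ZMod q) :=
  (groupCohomology.H1IsoOfIsTrivial (Rep.trivial (ZMod q) H (ZMod q))).toLinearEquiv.finrank_eq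

theorem hd_one_fin (q : ℕ) [Fact q.Prime] (H : Type) [Group H]
    (h : Module.Finite (ZMod q) (HH q H 1)) : Module.Finite (ZMod q) (Additive H →+ ZMod q) :=
  Module.Finite.equiv
    (groupCohomology.H1IsoOfIsTrivial (Rep.trivial (ZMod q) H (ZMod q))).toLinearEquiv

/-- kernel of a homomorphism to `ZMod q` has `q`-power index -/
theorem hom_ker_index {q : ℕ} [Fact q.Prime] {H : Type} [Group H]
    (f : H →* Multiplicative (ZMod q)) : ∃ k : ℕ, f.ker.index = q ^ k := by
  have hq : q.Prime := Fact.out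
  have h : f.ker.index ∣ q ^ 1 := by
    rw [Subgroup.index_ker, pow_one]
    refine (Subgroup.card_subgroup_dvd_card f.range).trans ?_
    rw [Nat.card_congr Multiplicative.toAdd]
    simp
  obtain ⟨n, -, hn⟩ := (Nat.dvd_prime_pow hq).1 h
  exact ⟨n, hn⟩

theorem blockNL_lit (q : ℕ) [Fact q.Prime] (H : Type) [Group H]
    (h1 : Module.Finite (ZMod q) (HH q H 1)) (h2 : Module.Finite (ZMod q) (HH q H 2))
    (E W : Subgroup H) (hEW : E ⊔ W = ⊤)
    (x : H →* Multiplicative (ZMod q) × Multiplicative (ZMod q)) (hW : W ≤ x.ker)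
    (hE : E.map x = ⊤)
    (hY : ∀ Y : Subgroup H, Y.Normal → (∃ k : ℕ, Y.index = q ^ k) →
      (∀ e ∈ E, e ^ q ∈ Y) ∧ (∀ e ∈ E, ∀ e' ∈ E, ⁅e, e'⁆ ∈ Y) ∧ (∀ e ∈ E, ∀ w ∈ W, ⁅e, w⁆ ∈ Y) ∧
      (∀ e ∈ E, x e = 1 → e ∈ Y)) :
    2 * hd q H 1 ≤ hd q H 2 + 1 := by
  classical
  have hfin := hd_one_fin q H h1
  have hsur : ∀ t, ∃ e ∈ E, x e = t := by
    intro t
    have : t ∈ E.map x := by rw [hE]; trivial
    exact this
  have hex : ∀ i : Fin 2, ∃ e ∈ E, x e = (ofAdd (if i = 0 then 1 else 0),
      ofAdd (if i = 1 then 1 else 0)) := fun i => hsur _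
  choose e heE hxe using hex
  -- homomorphisms vanishing on `e`
  let ev : (Additive H →+ ZMod q) →ₗ[ZMod q] (Fin 2 → ZMod q) :=
    { toFun := fun f i => f (Additive.ofMul (e i))
      map_add' := fun f g => rfl
      map_smul' := fun c f => rfl }
  let B := Module.finBasis (ZMod q) (LinearMap.ker ev)
  set m := Module.finrank (ZMod q) (LinearMap.ker ev) with hm
  have hdim : hd q H 1 ≤ m + 2 := by
    rw [hd_one]
    have ha := ev.finrank_range_add_finrank_ker
    have hb : Module.finrank (ZMod q) (LinearMap.range ev) ≤ 2 := by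
      refine (Submodule.finrank_le _).trans ?_
      rw [Module.finrank_fin_fun]
    omega
  let X : Fin 2 → H → ZMod q := fun i g => if i = 0 then toAdd (x g).1 else toAdd (x g).2
  let Y : Fin m → H → ZMod q := fun j g => (B j).1 (Additive.ofMul g)
  have hX : ∀ i g h, X i (g * h) = X i g + X i h := by
    intro i g h
    simp only [X, map_mul, Prod.fst_mul, Prod.snd_mul, toAdd_mul]
    split_ifs <;> rfl
  have hYm : ∀ j g h, Y j (g * h) = Y j g + Y j h := by
    intro j g h
    simp only [Y, ofMul_mul, map_add]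
  have hXe : ∀ i j, X i (e j) = if i = j then 1 else 0 := by
    intro i j
    simp only [X, hxe]
    fin_cases i <;> fin_cases j <;> simp
  have hYe : ∀ j i, Y j (e i) = 0 := by
    intro j i
    have := (B j).2
    rw [LinearMap.mem_ker] at this
    exact congrFun this i
  have hXW : ∀ i, ∀ w ∈ (W : Set H), X i w = 0 := by
    intro i w hw
    have : x w = 1 := hW hw
    simp [X, this]
  have hYW : ∀ b : Fin m → ZMod q, (∀ w ∈ (W : Set H), ∑ j, b j * Y j w = 0) → b = 0 := by
    intro b hb
    set f : Additive H →+ ZMod q := (∑ j, b j • B j : LinearMap.ker ev).1 with hf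
    have hfv : ∀ g : H, f (Additive.ofMul g) = ∑ j, b j * Y j g := by
      intro g
      rw [hf]
      simp only [AddSubmonoidClass.coe_finsetSum, Submodule.coe_smul, AddMonoidHom.finsetSum_apply,
        AddMonoidHom.smul_apply, smul_eq_mul, Y]
    let F : H →* Multiplicative (ZMod q) := AddMonoidHom.toMultiplicativeRight f
    have hFv : ∀ g : H, toAdd (F g) = f (Additive.ofMul g) := fun g => rfl
    have hFW : W ≤ F.ker := by
      intro w hw
      have h3 : toAdd (F w) = 0 := by rw [hFv, hfv]; exact hb w hw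
      exact toAdd_eq_zero.1 h3
    have hFe : ∀ i, F (e i) = 1 := by
      intro i
      have h3 : toAdd (F (e i)) = 0 := by
        rw [hFv, hfv]
        exact Finset.sum_eq_zero fun j _ => by rw [hYe, mul_zero]
      exact toAdd_eq_zero.1 h3
    have hFE : E ≤ F.ker := by
      intro g hg
      have h4 := (hY F.ker inferInstance (hom_ker_index F)).2.2.2
      set u := (toAdd (x g).1).val with hu
      set v := (toAdd (x g).2).val with hv
      have h5 : x (e 0 ^ u * e 1 ^ v) = x g := by
        rw [map_mul, map_pow, map_pow, hxe, hxe]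
        refine Prod.ext ?_ ?_
        · apply Multiplicative.toAdd.injective
          simp [hu]
        · apply Multiplicative.toAdd.injective
          simp [hv]
      have h6 : e 0 ^ u * e 1 ^ v ∈ E := E.mul_mem (E.pow_mem (heE 0) _) (E.pow_mem (heE 1) _)
      have h7 := h4 ((e 0 ^ u * e 1 ^ v)⁻¹ * g) (E.mul_mem (E.inv_mem h6) hg)
        (by rw [map_mul, map_inv, h5, inv_mul_cancel])
      rw [MonoidHom.mem_ker, map_mul, map_inv, map_mul, map_pow, map_pow, hFe, hFe] at h7
      simpa using h7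
    have hF1 : F.ker = ⊤ := top_le_iff.1 (hEW ▸ sup_le hFE hFW)
    have h8 : (∑ j, b j • B j : LinearMap.ker ev) = 0 := by
      apply Subtype.ext
      refine AddMonoidHom.ext fun g => ?_
      have h9 : Additive.toMul g ∈ F.ker := by rw [hF1]; trivial
      exact h9
    have h9 := Fintype.linearIndependent_iff.1 B.linearIndependent b h8
    exact funext h9
  have hR : ∀ N : Subgroup H, N.Normal → (∃ n : ℕ, N.index = q ^ n) →
      (∀ i, e i ^ q ∈ N) ∧ ⁅e 0, e 1⁆ ∈ N ∧ ∀ i, ∀ w ∈ (W : Set H), ⁅e i, w⁆ ∈ N := by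
    intro N hN hNi
    obtain ⟨a1, a2, a3, -⟩ := hY N hN hNi
    exact ⟨fun i => a1 _ (heE i), a2 _ (heE 0) _ (heE 1), fun i w hw => a3 _ (heE i) w hw⟩
  have hcard := card_le_hd2 (p := q) (cc X Y) (cc_coc X Y hX hYm) fun a ⟨b, hb⟩ =>
    indep hX hYm hXe hYe hXW hYW hR a b hb
  have hc : Fintype.card (Ix m) = 2 + (1 + 2 * m) := by
    simp [Ix]
  omega

end Vale.Agent.P260.H553
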