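import Vale.Agent.P260.H553.Nat

/-!
# P260, block [A4] : lifting of small cubes along local homeomorphisms
-/

set_option linter.all false

open Set Filter Topology

namespace Vale.Agent.P260.H553

open Vale.Agent.P216 Vale.Agent.P216.Ch2
open Vale.Agent.P216.D246 Vale.Agent.P216.Ch2.D246 Vale.Agent.P216.Ch2.D246.Cub

/-- A cube with a smaller radius. -/
noncomputable def shrink {M : Type} [MetricSpace M] [CompactSpace M] {n : ℕ} (c : Cub M n) (r : ℝ)
    (hr : 0 < r) (hr1 : r ≤ 1) : Cub M n where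
  D := {a | a ∈ c.D ∧ ‖c.φ a‖ ≤ 2 * r}
  φ a := r⁻¹ • c.φ a
  ψ y := c.ψ (r • y)
  closed := by
    have h := c.φ_cont.norm.preimage_isClosed_of_isClosed c.closed (isClosed_Iic (a := 2 * r))
    exact h
  φ_cont := (c.φ_cont.mono fun a ha => ha.1).const_smul r⁻¹
  φ_le a ha := by
    rw [norm_smul, norm_inv, Real.norm_of_nonneg hr.le, inv_mul_le_iff₀ hr]
    have := ha.2
    linarith
  ψ_cont := by
    refine c.ψ_cont.comp (by fun_prop) fun y hy => ?_
    change ‖r • y‖ ≤ 2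
    have hy' : ‖y‖ ≤ 2 := hy
    rw [norm_smul, Real.norm_of_nonneg hr.le]
    nlinarith [norm_nonneg y]
  ψ_mem y hy := by
    have h1 : ‖r • y‖ ≤ 2 * r := by
      rw [norm_smul, Real.norm_of_nonneg hr.le]
      nlinarith [norm_nonneg y]
    have h2 : ‖r • y‖ ≤ 2 := by linarith
    refine ⟨c.ψ_mem _ h2, ?_⟩
    rw [c.φψ _ h2]
    exact h1
  ψφ x hx := by
    change c.ψ (r • r⁻¹ • c.φ x) = x
    rw [smul_smul, mul_inv_cancel₀ hr.ne', one_smul, c.ψφ x hx.1]
  φψ y hy := by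
    have h1 : ‖r • y‖ ≤ 2 := by
      rw [norm_smul, Real.norm_of_nonneg hr.le]
      nlinarith [norm_nonneg y]
    change r⁻¹ • c.φ (c.ψ (r • y)) = y
    rw [c.φψ _ h1, smul_smul, inv_mul_cancel₀ hr.ne', one_smul]
  open_int := by
    have h := isOpen_box (c := c) (v := 0) (δ := 2 * r) (by rw [norm_zero]; linarith)
    have e : {x | x ∈ {a | a ∈ c.D ∧ ‖c.φ a‖ ≤ 2 * r} ∧ ‖r⁻¹ • c.φ x‖ < 2} =
        {a | a ∈ c.D ∧ ‖c.φ a - 0‖ < 2 * r} := by
      ext a
      simp only [mem_ofPred_eq, sub_zero, norm_smul, norm_inv, Real.norm_of_nonneg hr.le]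
      rw [inv_mul_lt_iff₀ hr, mul_comm r 2]
      constructor
      · rintro ⟨⟨h1, -⟩, h2⟩
        exact ⟨h1, h2⟩
      · rintro ⟨h1, h2⟩
        exact ⟨⟨h1, h2.le⟩, h2⟩
    rw [e]
    exact h

/-- The cube of `N` corresponding to a cube of `M` in the target of a local homeomorphism. -/
noncomputable def liftC {M N : Type} [TopologicalSpace M] [TopologicalSpace N] [T2Space N] {n : ℕ}
    (g : OpenPartialHomeomorph N M) (c : Cub M n) (hc : c.D ⊆ g.target) : Cub N n where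
  D := g.symm '' c.D
  φ a := c.φ (g a)
  ψ y := g.symm (c.ψ y)
  closed := by
    have h : g.symm '' c.D = (fun y => g.symm (c.ψ y)) '' {y | ‖y‖ ≤ 2} := by
      ext a
      constructor
      · rintro ⟨b, hb, rfl⟩
        exact ⟨c.φ b, c.φ_le b hb, by change g.symm (c.ψ (c.φ b)) = _; rw [c.ψφ b hb]⟩
      · rintro ⟨y, hy, rfl⟩
        exact ⟨c.ψ y, c.ψ_mem y hy, rfl⟩
    rw [h]
    have hcl : {y : Fin n → ℝ | ‖y‖ ≤ 2} = Metric.closedBall 0 2 := by
      ext y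
      simp
    have hcpt : IsCompact {y : Fin n → ℝ | ‖y‖ ≤ 2} := by
      rw [hcl]
      exact isCompact_closedBall _ _
    exact (hcpt.image_of_continuousOn (g.continuousOn_symm.comp c.ψ_cont fun y hy =>
      hc (c.ψ_mem y hy))).isClosed
  φ_cont := by
    refine c.φ_cont.comp (g.continuousOn.mono ?_) ?_
    · rintro _ ⟨b, hb, rfl⟩
      exact g.map_target (hc hb)
    · rintro _ ⟨b, hb, rfl⟩
      rw [g.right_inv (hc hb)]
      exact hb
  φ_le x hx := by
    obtain ⟨b, hb, rfl⟩ := hx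
    rw [g.right_inv (hc hb)]
    exact c.φ_le b hb
  ψ_cont := g.continuousOn_symm.comp c.ψ_cont fun y hy => hc (c.ψ_mem y hy)
  ψ_mem y hy := ⟨c.ψ y, c.ψ_mem y hy, rfl⟩
  ψφ x hx := by
    obtain ⟨b, hb, rfl⟩ := hx
    rw [g.right_inv (hc hb), c.ψφ b hb]
  φψ y hy := by
    change c.φ (g (g.symm (c.ψ y))) = y
    rw [g.right_inv (hc (c.ψ_mem y hy)), c.φψ y hy]
  open_int := by
    have h := g.isOpen_inter_preimage c.open_int
    have e : {x | x ∈ g.symm '' c.D ∧ ‖c.φ (g x)‖ < 2} =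
        g.source ∩ g ⁻¹' {x | x ∈ c.D ∧ ‖c.φ x‖ < 2} := by
      ext a
      constructor
      · rintro ⟨⟨b, hb, rfl⟩, h2⟩
        refine ⟨g.map_target (hc hb), ?_⟩
        change g (g.symm b) ∈ c.D ∧ _
        refine ⟨?_, h2⟩
        rw [g.right_inv (hc hb)]
        exact hb
      · rintro ⟨h1, h2, h3⟩
        exact ⟨⟨g a, h2, g.left_inv h1⟩, h3⟩
    rw [e]
    exact h

/-- **Lifting.** -/
theorem exists_over {M N : Type} [MetricSpace M] [CompactSpace M] [TopologicalSpace N] [T2Space N]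
    {n : ℕ} (loc : LocEuc M n) {π : N → M} (g : OpenPartialHomeomorph N M)
    (hg : ∀ x ∈ g.source, g x = π x) {b : N} (hb : b ∈ g.source) :
    ∃ (d : Cub N n) (c : Cub M n), Over π d c ∧ b ∈ d.D ∧ d.φ b = 0 := by
  obtain ⟨c₀, h1, h2⟩ := loc (g b)
  have ht : g.target ∈ 𝓝 (c₀.ψ 0) := by
    rw [← h2, c₀.ψφ _ h1]
    exact g.open_target.mem_nhds (g.map_source hb)
  have h3 := (c₀.ψ_cont 0 (by simp)) ht
  rw [mem_map, mem_nhdsWithin_iff_exists_mem_nhds_inter] at h3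
  obtain ⟨V, hV, hV'⟩ := h3
  obtain ⟨η, hη, hη'⟩ := Metric.mem_nhds_iff.1 hV
  have hr : 0 < min (η / 3) 1 := lt_min (by positivity) one_pos
  set r := min (η / 3) 1 with hrd
  have hrη : 2 * r < η := by
    have := min_le_left (η / 3) 1
    rw [← hrd] at this
    linarith
  let c := shrink c₀ r hr (min_le_right _ _)
  have hc : c.D ⊆ g.target := by
    rintro a ⟨ha, ha'⟩
    have h4 : c₀.φ a ∈ Metric.ball (0 : Fin n → ℝ) η := by
      rw [Metric.mem_ball, dist_zero_right]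
      linarith
    have h5 := hV' ⟨hη' h4, c₀.φ_le a ha⟩
    have h6 : c₀.ψ (c₀.φ a) ∈ g.target := h5
    rwa [c₀.ψφ a ha] at h6
  have hbc : g b ∈ c.D := ⟨h1, by rw [h2, norm_zero]; linarith⟩
  refine ⟨liftC g c hc, c, fun y hy => ?_, ⟨g b, hbc, g.left_inv hb⟩, ?_⟩
  · change π (g.symm (c.ψ y)) = c.ψ y
    rw [← hg _ (g.map_target (hc (c.ψ_mem y hy))), g.right_inv (hc (c.ψ_mem y hy))]
  · change r⁻¹ • c₀.φ (g b) = 0
    rw [h2, smul_zero]

end Vale.Agent.P260.H553
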