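import Vale.Agent.P260.Defs

/-!
P260, theorem T4: the numeric lemma [NL].  A group `H` which modulo every normal subgroup of
`p`-power index looks like `(ℤ/p)² × W` has `dim H²(H; 𝔽_p) ≥ 2 m + 3`.
-/

namespace Vale.Agent.P260.H553

open scoped commutatorElement

/-- the intersection of the normal subgroups of `p`-power index -/
def Rp (p : ℕ) (G : Type*) [Group G] : Subgroup G :=
  sInf {N : Subgroup G | N.Normal ∧ ∃ n : ℕ, N.index = p ^ n}

theorem Rp_le {p : ℕ} {G : Type*} [Group G] {N : Subgroup G} (hN : N.Normal)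
    (h : ∃ n : ℕ, N.index = p ^ n) : Rp p G ≤ N :=
  sInf_le ⟨hN, h⟩

/-- Linearly independent cohomology classes (helper388's lemma). -/
theorem card_le_hd2 {p : ℕ} [Fact p.Prime] {G : Type} [Group G]
    [Module.Finite (ZMod p) (HH p G 2)] {ι : Type*} [Fintype ι] (c : ι → G → G → ZMod p)
    (hc : ∀ i g h l, c i h l + c i g (h * l) = c i (g * h) l + c i g h)
    (ha : ∀ a : ι → ZMod p,
      (∃ b : G → ZMod p, ∀ g h, ∑ i, a i * c i g h = b g + b h - b (g * h)) → a = 0) :
    Fintype.card ι ≤ hd p G 2 := by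
  let C : ι → groupCohomology.cocycles₂ (Rep.trivial (ZMod p) G (ZMod p)) := fun i =>
    ⟨fun x => c i x.1 x.2, by
      rw [groupCohomology.mem_cocycles₂_iff]
      intro g h j
      exact (hc i g h j).symm⟩
  have hli : LinearIndependent (ZMod p) fun i =>
      (groupCohomology.H2π (Rep.trivial (ZMod p) G (ZMod p))).hom (C i) := by
    rw [Fintype.linearIndependent_iff]
    intro a h0 i
    have h1 : (groupCohomology.H2π (Rep.trivial (ZMod p) G (ZMod p))).hom (∑ i, a i • C i) = 0 := by
      rw [map_sum, ← h0]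
      exact Finset.sum_congr rfl fun i _ => by rw [map_smul]
    have h2 := (groupCohomology.H2π_eq_zero_iff _).mp h1
    obtain ⟨b, hb⟩ := h2
    have h3 : a = 0 := ha a ⟨b, fun g h => ?_⟩
    · rw [h3]; rfl
    have h4 := congrFun hb (g, h)
    rw [groupCohomology.d₁₂_hom_apply] at h4
    have h5 : (∑ i, a i • C i :
        groupCohomology.cocycles₂ (Rep.trivial (ZMod p) G (ZMod p))) (g, h) =
        ∑ i, a i * c i g h := by
      rw [← groupCohomology.cocycles₂.val_eq_coe, AddSubmonoidClass.coe_finsetSum,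
        Finset.sum_apply]
      rfl
    have h6 : (∑ i, a i • C i :
        groupCohomology.cocycles₂ (Rep.trivial (ZMod p) G (ZMod p))) (g, h) =
        b h - b (g * h) + b g := h4.symm
    rw [← h5, h6]
    ring
  exact hli.fintype_card_le_finrank

section carry

variable {p : ℕ} [Fact p.Prime]

/-- the carry -/
def kap (u v : ZMod p) : ℕ := (u.val + v.val) / p

theorem kap_eq (u v : ZMod p) : p * kap u v + (u + v).val = u.val + v.val := by
  rw [kap, ZMod.val_add]
  exact Nat.div_add_mod _ _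

theorem kap_coc (u v w : ZMod p) :
    (kap v w : ZMod p) + kap u (v + w) = kap (u + v) w + kap u v := by
  have h1 := kap_eq v w
  have h2 := kap_eq u (v + w)
  have h3 := kap_eq (u + v) w
  have h4 := kap_eq u v
  rw [← add_assoc] at h2
  have h5 : p * (kap v w + kap u (v + w)) = p * (kap (u + v) w + kap u v) := by
    rw [mul_add, mul_add]; omega
  have h6 := Nat.eq_of_mul_eq_mul_left (Fact.out : p.Prime).pos h5
  exact_mod_cast congrArg (Nat.cast : ℕ → ZMod p) h6

theorem kap_zero_left (v : ZMod p) : kap 0 v = 0 := by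
  rw [kap, ZMod.val_zero, zero_add]
  exact Nat.div_eq_of_lt (ZMod.val_lt v)

theorem kap_zero_right (v : ZMod p) : kap v 0 = 0 := by
  rw [kap, ZMod.val_zero, add_zero]
  exact Nat.div_eq_of_lt (ZMod.val_lt v)

theorem kap_one (k : ℕ) : k / p + kap (k : ZMod p) 1 = (k + 1) / p := by
  have hp : 1 < p := (Fact.out : p.Prime).one_lt
  have h1 : (1 : ZMod p).val = 1 := by
    have : ((1 : ℕ) : ZMod p).val = 1 % p := ZMod.val_natCast p 1
    rw [Nat.cast_one] at this
    rw [this, Nat.mod_eq_of_lt hp]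
  rw [kap, ZMod.val_natCast, h1]
  have h2 : k + 1 = p * (k / p) + (k % p + 1) := by
    have := Nat.div_add_mod k p
    omega
  conv_rhs => rw [h2]
  rw [Nat.mul_add_div (by omega)]

end carry

section nl

variable {p : ℕ} [Fact p.Prime] {H : Type} {m : ℕ}

/-- index set of the cocycles -/
abbrev Ix (m : ℕ) : Type := Fin 2 ⊕ (Unit ⊕ (Fin 2 × Fin m))

/-- the cocycles -/
def cc (X : Fin 2 → H → ZMod p) (Y : Fin m → H → ZMod p) : Ix m → H → H → ZMod p
  | Sum.inl i, g, h => kap (X i g) (X i h)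
  | Sum.inr (Sum.inl _), g, h => X 0 g * X 1 h
  | Sum.inr (Sum.inr (i, j)), g, h => X i g * Y j h

variable (X : Fin 2 → H → ZMod p) (Y : Fin m → H → ZMod p)

theorem cc_left (t : Ix m) {g : H} (hg : ∀ i, X i g = 0) (h : H) : cc X Y t g h = 0 := by
  rcases t with i | _ | ⟨i, j⟩
  · simp only [cc, hg, kap_zero_left, Nat.cast_zero]
  · simp only [cc, hg]; ring
  · simp only [cc, hg]; ring

theorem cc_right (t : Ix m) (g : H) {h : H} (hh : ∀ i, X i h = 0) (hh' : ∀ j, Y j h = 0) :
    cc X Y t g h = 0 := by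
  rcases t with i | _ | ⟨i, j⟩
  · simp only [cc, hh, kap_zero_right, Nat.cast_zero]
  · simp only [cc, hh]; ring
  · simp only [cc, hh']; ring

/-- expanding a combination of the cocycles -/
theorem sum_cc (a : Ix m → ZMod p) (g h : H) :
    ∑ t, a t * cc X Y t g h =
      (a (Sum.inl 0) * kap (X 0 g) (X 0 h) + a (Sum.inl 1) * kap (X 1 g) (X 1 h)) +
      (a (Sum.inr (Sum.inl ())) * (X 0 g * X 1 h) +
        (∑ j, a (Sum.inr (Sum.inr (0, j))) * (X 0 g * Y j h) +
          ∑ j, a (Sum.inr (Sum.inr (1, j))) * (X 1 g * Y j h))) := by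
  rw [Fintype.sum_sum_type, Fintype.sum_sum_type, Fin.sum_univ_two, Fintype.sum_prod_type,
    Fin.sum_univ_two]
  simp [cc]

variable [Group H]

theorem cc_coc (hX : ∀ i g h, X i (g * h) = X i g + X i h)
    (hY : ∀ j g h, Y j (g * h) = Y j g + Y j h) (t : Ix m) (g h l : H) :
    cc X Y t h l + cc X Y t g (h * l) = cc X Y t (g * h) l + cc X Y t g h := by
  rcases t with i | _ | ⟨i, j⟩
  · simp only [cc, hX]
    exact kap_coc _ _ _
  · simp only [cc, hX]; ring
  · simp only [cc, hX, hY]; ring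

theorem indep {X : Fin 2 → H → ZMod p} {Y : Fin m → H → ZMod p}
    (hX : ∀ i g h, X i (g * h) = X i g + X i h)
    (hY : ∀ j g h, Y j (g * h) = Y j g + Y j h)
    {e : Fin 2 → H} {W : Set H} (hXe : ∀ i j, X i (e j) = if i = j then 1 else 0)
    (hYe : ∀ j i, Y j (e i) = 0) (hXW : ∀ i, ∀ w ∈ W, X i w = 0)
    (hYW : ∀ b : Fin m → ZMod p, (∀ w ∈ W, ∑ j, b j * Y j w = 0) → b = 0)
    (hR : ∀ N : Subgroup H, N.Normal → (∃ n : ℕ, N.index = p ^ n) →
      (∀ i, e i ^ p ∈ N) ∧ ⁅e 0, e 1⁆ ∈ N ∧ ∀ i, ∀ w ∈ W, ⁅e i, w⁆ ∈ N)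
    (a : Ix m → ZMod p) (b : H → ZMod p)
    (hb : ∀ g h, ∑ t, a t * cc X Y t g h = b g + b h - b (g * h)) : a = 0 := by
  classical
  have hp : p.Prime := Fact.out
  have hl : ∀ {g : H}, (∀ i, X i g = 0) → ∀ h, b (g * h) = b g + b h := by
    intro g hg h
    have h1 := hb g h
    rw [Finset.sum_eq_zero fun t _ => by rw [cc_left X Y t hg, mul_zero]] at h1
    exact (sub_eq_zero.1 h1.symm).symm
  have hr : ∀ (g : H) {h : H}, (∀ i, X i h = 0) → (∀ j, Y j h = 0) → b (g * h) = b g + b h := by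
    intro g h hh hh'
    have h1 := hb g h
    rw [Finset.sum_eq_zero fun t _ => by rw [cc_right X Y t g hh hh', mul_zero]] at h1
    exact (sub_eq_zero.1 h1.symm).symm
  have hX1 : ∀ i, X i 1 = 0 := fun i => by
    have := hX i 1 1
    rw [mul_one] at this
    exact left_eq_add.1 this
  have hY1 : ∀ j, Y j 1 = 0 := fun j => by
    have := hY j 1 1
    rw [mul_one] at this
    exact left_eq_add.1 this
  have hb1 : b 1 = 0 := by
    have := hl hX1 1
    rw [mul_one] at this
    exact left_eq_add.1 this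
  -- the common kernel
  let F : H →* Multiplicative ((Fin 2 → ZMod p) × (Fin m → ZMod p)) :=
    { toFun := fun g => Multiplicative.ofAdd (fun i => X i g, fun j => Y j g)
      map_one' := by
        rw [← ofAdd_zero]
        congr 1
        exact Prod.ext (funext hX1) (funext hY1)
      map_mul' := fun g h => by
        rw [← ofAdd_add]
        congr 1
        exact Prod.ext (funext fun i => hX i g h) (funext fun j => hY j g h) }
  have hF : ∀ g, g ∈ F.ker ↔ (∀ i, X i g = 0) ∧ ∀ j, Y j g = 0 := by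
    intro g
    rw [MonoidHom.mem_ker]
    constructor
    · intro h
      have h1 : ((fun i => X i g, fun j => Y j g) : (Fin 2 → ZMod p) × (Fin m → ZMod p)) = 0 := h
      exact ⟨fun i => congrFun (congrArg Prod.fst h1) i, fun j => congrFun (congrArg Prod.snd h1) j⟩
    · rintro ⟨h1, h2⟩
      exact congrArg Multiplicative.ofAdd (Prod.ext (funext h1) (funext h2))
  let s : F.ker →* Multiplicative (ZMod p) :=
    { toFun := fun g => Multiplicative.ofAdd (b g.1)
      map_one' := by
        rw [← ofAdd_zero]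
        exact congrArg Multiplicative.ofAdd hb1
      map_mul' := fun g h => by
        rw [← ofAdd_add]
        exact congrArg Multiplicative.ofAdd (hl ((hF _).1 g.2).1 _) }
  let N : Subgroup H := s.ker.map F.ker.subtype
  have hN : ∀ g, g ∈ N ↔ (∀ i, X i g = 0) ∧ (∀ j, Y j g = 0) ∧ b g = 0 := by
    intro g
    constructor
    · rintro ⟨⟨g, hg⟩, hs, rfl⟩
      exact ⟨((hF _).1 hg).1, ((hF _).1 hg).2, hs⟩
    · rintro ⟨h1, h2, h3⟩
      exact ⟨⟨g, (hF g).2 ⟨h1, h2⟩⟩, h3, rfl⟩
  have hconj : ∀ (f : H → ZMod p), (∀ g h, f (g * h) = f g + f h) → ∀ g h,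
      f (g * h * g⁻¹) = f h := by
    intro f hf g h
    have h1 : f (g * h * g⁻¹ * g) = f (g * h * g⁻¹) + f g := hf _ _
    rw [inv_mul_cancel_right, hf, add_comm] at h1
    exact (add_right_cancel h1).symm
  have hNn : N.Normal := by
    refine ⟨fun n hn g => ?_⟩
    obtain ⟨h1, h2, h3⟩ := (hN n).1 hn
    have h4 : ∀ i, X i (g * n * g⁻¹) = 0 := fun i => by rw [hconj _ (hX i), h1]
    have h5 : ∀ j, Y j (g * n * g⁻¹) = 0 := fun j => by rw [hconj _ (hY j), h2]
    refine (hN _).2 ⟨h4, h5, ?_⟩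
    have h6 : b (g * n * g⁻¹ * g) = b (g * n * g⁻¹) + b g := hl h4 g
    rw [inv_mul_cancel_right, hr g h1 h2, add_comm, h3] at h6
    exact (add_right_cancel h6).symm
  have hNi : ∃ n : ℕ, N.index = p ^ n := by
    have h1 : F.ker.index ∣ p ^ (2 + m) := by
      rw [Subgroup.index_ker]
      refine (Subgroup.card_subgroup_dvd_card F.range).trans ?_
      rw [Nat.card_congr Multiplicative.toAdd, Nat.card_prod, Nat.card_pi, Nat.card_pi]
      simp [pow_add]
    have h2 : N.relIndex F.ker ∣ p := by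
      rw [Subgroup.relIndex]
      have : N.subgroupOf F.ker = s.ker :=
        Subgroup.comap_map_eq_self_of_injective (Subgroup.subtype_injective _) _
      rw [this, Subgroup.index_ker]
      refine (Subgroup.card_subgroup_dvd_card s.range).trans ?_
      rw [Nat.card_congr Multiplicative.toAdd]
      simp
    have h3 : N ≤ F.ker := by
      intro g hg
      exact (hF g).2 ⟨((hN g).1 hg).1, ((hN g).1 hg).2.1⟩
    have h4 : N.index ∣ p ^ (2 + m + 1) := by
      rw [← Subgroup.relIndex_mul_index h3, pow_succ, mul_comm]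
      exact mul_dvd_mul h1 h2
    obtain ⟨n, -, hn⟩ := (Nat.dvd_prime_pow hp).1 h4
    exact ⟨n, hn⟩
  obtain ⟨hR1, hR2, hR3⟩ := hR N hNn hNi
  -- commutators
  have hcomm : ∀ g h, ⁅g, h⁆ ∈ N → b (g * h) = b (h * g) := by
    intro g h hgh
    have h1 : g * h = ⁅g, h⁆ * (h * g) := by rw [commutatorElement_def]; group
    rw [h1, hl ((hN _).1 hgh).1, ((hN _).1 hgh).2.2, zero_add]
  have hsw : ∀ g h, ⁅g, h⁆ ∈ N →
      ∑ t, a t * cc X Y t g h = ∑ t, a t * cc X Y t h g := by
    intro g h hgh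
    rw [hb, hb, hcomm g h hgh, add_comm (b g)]
  have ha2 : a (Sum.inr (Sum.inl ())) = 0 := by
    have h1 := hsw _ _ hR2
    rw [sum_cc, sum_cc] at h1
    simpa [hXe, hYe, kap_zero_left, kap_zero_right] using h1
  have ha3 : ∀ i j, a (Sum.inr (Sum.inr (i, j))) = 0 := by
    intro i j
    have h1 : (fun j => a (Sum.inr (Sum.inr (i, j)))) = 0 := by
      refine hYW _ fun w hw => ?_
      have h2 := hsw _ _ (hR3 i w hw)
      rw [sum_cc, sum_cc] at h2
      fin_cases i
      · simpa [hXe, hYe, hXW _ w hw, kap_zero_left, kap_zero_right] using h2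
      · simpa [hXe, hYe, hXW _ w hw, kap_zero_left, kap_zero_right] using h2
    exact congrFun h1 j
  have hXp : ∀ (i l : Fin 2) (k : ℕ), X l (e i ^ k) = if l = i then (k : ZMod p) else 0 := by
    intro i l k
    induction k with
    | zero => simp [hX1]
    | succ k ih => rw [pow_succ, hX, ih, hXe]; split_ifs <;> simp
  have ha1 : ∀ i, a (Sum.inl i) = 0 := by
    intro i
    have h1 : ∀ k : ℕ, b (e i ^ k) = k * b (e i) - a (Sum.inl i) * ((k / p : ℕ) : ZMod p) := by
      intro k
      induction k with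
      | zero => simp [hb1]
      | succ k ih =>
        have h2 := hb (e i ^ k) (e i)
        rw [← pow_succ, sum_cc] at h2
        have h3 : a (Sum.inl i) * ((kap (k : ZMod p) 1 : ℕ) : ZMod p) =
            b (e i ^ k) + b (e i) - b (e i ^ (k + 1)) := by
          rw [← h2]
          rw [hXp, hXp, hXe, hXe]
          fin_cases i
          · simp [hYe, kap_zero_left]
          · simp [hYe, kap_zero_left]
        have h4 : b (e i ^ (k + 1)) = b (e i ^ k) + b (e i) -
            a (Sum.inl i) * ((kap (k : ZMod p) 1 : ℕ) : ZMod p) := by rw [h3]; ring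
        rw [h4, ih, ← kap_one]
        push_cast
        ring
    have h2 := h1 p
    rw [((hN _).1 (hR1 i)).2.2, Nat.div_self hp.pos] at h2
    simpa using h2.symm
  funext t
  rcases t with i | ⟨⟩ | ⟨i, j⟩
  · exact ha1 i
  · exact ha2
  · exact ha3 i j

end nl

end Vale.Agent.P260.H553
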