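import Vale.Agent.P216.Ch2.D246.Dim

/-!
# P260, block [A4] : a closed manifold with a compatible system of numbers `o` on the cubes of a
sufficiently large family has a non exact top cocycle
-/

set_option linter.all false

open Set Filter Topology

namespace Vale.Agent.P260.H553

open Vale.Agent.P216 Vale.Agent.P216.Ch2
open Vale.Agent.P216.D246 Vale.Agent.P216.Ch2.D246 Vale.Agent.P216.Ch2.D246.Cub

open Vale.Agent.P216.AS Vale.Agent.P216.Ch2.AS Vale.Agent.P216.H901 Vale.Agent.P216.Ch2.H901 Vale.Agent.P216.H83 Vale.Agent.P216.Ch2.H83 Vale.Agent.P216.Sl Vale.Agent.P216.PS Vale.Agent.P216.H133C Vale.Agent.P216.Ch2.H133C Vale.Agent.P216.C313 Vale.Agent.P216.Ch2.C313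

/-- Every point of `M` is the centre of a cube of the family `P`. -/
def LocP {M : Type} [TopologicalSpace M] {n : ℕ} (P : Cub M n → Prop) : Prop :=
  ∀ x : M, ∃ c : Cub M n, P c ∧ x ∈ c.D ∧ c.φ x = 0

theorem LocP.loc {M : Type} [TopologicalSpace M] {n : ℕ} {P : Cub M n → Prop} (h : LocP P) :
    LocEuc M n := fun x => by
  obtain ⟨c, -, h1, h2⟩ := h x
  exact ⟨c, h1, h2⟩

variable {M : Type} [MetricSpace M] [CompactSpace M] {n : ℕ} {k : Type} [Field k]
  {c c' c'' : Cub M n} {v w : Fin n → ℝ} {δ η : ℝ} {P : Cub M n → Prop}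

variable (e : Hr (tr (Unit × (Fin n → ℝ))) (on k) (cbE n (univ : Set Unit))
    (bdE n univ ∅) n ≃ₗ[k] k)

/-- **Spanning.** -/
theorem span_N (h2 : Ok k) (hn : 1 ≤ n) (loc : LocP P) {N : Set M} (hN : IsCompact N)
    (S : Submodule k (Hr (tr M) (on k) (univ : Set M) N n))
    (hS : ∀ (c : Cub M n) (_ : P c) (δ : ℝ) (hδ : 0 < δ) (hb : ‖(0 : Fin n → ℝ)‖ + δ ≤ 2)
      (hs : N ⊆ c.A1 0 δ), resR subset_rfl hs n (gb e h2 c hδ hb) ∈ S)
    (y : Hr (tr M) (on k) (univ : Set M) N n) : y ∈ S := by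
  classical
  obtain ⟨ε₀, hε₀, hex⟩ := exists_relative_nhd (tw_tr h2 (univ : Set M)) (inv_tr _) hN
    (subset_univ _) (inv_tr _) y
  choose C hCP hC hC0 using loc
  have hr : ∀ b : M, ∃ r : ℝ, 0 < r ∧ r ≤ 2 ∧ (b ∉ N → N ⊆ (C b).A1 0 r) := by
    intro b
    by_cases hb : b ∈ N
    · exact ⟨1, one_pos, one_le_two, fun h => absurd hb h⟩
    · obtain ⟨η, h1, h3, h4, h5⟩ := small_box (c := C b) hN.isClosed (hC b)
        (by rw [hC0, norm_zero]; exact two_pos) hb two_pos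
      rw [hC0] at h5
      exact ⟨η, h1, h3, fun _ => h5⟩
  choose r hr0 hr2 hrN using hr
  have h01 : ∀ b, ‖(0 : Fin n → ℝ)‖ + r b ≤ 2 := fun b => by rw [norm_zero, zero_add]; exact hr2 b
  have hO : IsOpen (Nb (univ : Set M) N ε₀) := by
    have : Nb (univ : Set M) N ε₀ = ⋃ y ∈ N, Metric.ball y ε₀ := by
      ext x
      simp [Nb]
    rw [this]
    exact isOpen_biUnion fun _ _ => Metric.isOpen_ball
  have hNK : ∀ b ∈ (Nb (univ : Set M) N ε₀)ᶜ, b ∉ N := fun b hb h =>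
    hb (sub_Nb (subset_univ _) hε₀ h)
  obtain ⟨T, hT1, hT2⟩ := hO.isClosed_compl.isCompact.elim_nhds_subcover
    (fun b : M => {a | a ∈ (C b).D ∧ ‖(C b).φ a - 0‖ < r b}) fun b hb => by
      refine (isOpen_box (h01 b)).mem_nhds ⟨hC b, ?_⟩
      rw [hC0, sub_zero, norm_zero]
      exact hr0 b
  obtain ⟨hN', z, hz⟩ := hex {a | ∀ b ∈ T, a ∈ (C b).A1 0 (r b)}
    (fun a ha b hb => hrN b (hNK b (hT1 b hb)) ha) (fun a ha => by
      by_contra hcon
      obtain ⟨b, hb, hb'⟩ := mem_iUnion₂.1 (hT2 hcon)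
      exact absurd (ha b hb hb'.1) (not_le.2 hb'.2))
  rw [← hz]
  refine sum_cover h2 hn S C r hr2 T (fun b hb hs z => ?_) hN' z
  rw [eq_gb e h2 (hr0 b) (h01 b) z, map_smul]
  exact S.smul_mem _ (hS (C b) (hCP b) (r b) (hr0 b) (h01 b) hs)

/-- A functional with the right values on the boxes of the cubes in `P`. -/
def Cns (P : Cub M n → Prop) (h2 : Ok k) (o : Cub M n → k) (N : Set M)
    (I : Hr (tr M) (on k) (univ : Set M) N n →ₗ[k] k) : Prop :=
  ∀ (c : Cub M n) (_ : P c) (w : Fin n → ℝ) (η : ℝ) (hη : 0 < η) (hb : ‖w‖ + η ≤ 2)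
    (hs : N ⊆ c.A1 w η), I (resR subset_rfl hs n (gb e h2 c hη hb)) = o c

theorem cns_inter (h2 : Ok k) (hn : 1 ≤ n) (loc : LocP P) {o : Cub M n → k}
    {A L : Set M} (cA : IsCompact A) (cL : IsCompact L) (h0 : NoH k (univ : Set M) (A ∪ L) (n + 1))
    {IA : Hr (tr M) (on k) (univ : Set M) A n →ₗ[k] k}
    {IL : Hr (tr M) (on k) (univ : Set M) L n →ₗ[k] k} (hA : Cns e P h2 o A IA)
    (hL : Cns e P h2 o L IL) :
    ∃ I : Hr (tr M) (on k) (univ : Set M) (A ∩ L) n →ₗ[k] k, Cns e P h2 o (A ∩ L) I := by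
  let F : (Hr (tr M) (on k) (univ : Set M) A n × Hr (tr M) (on k) (univ : Set M) L n) →ₗ[k]
      Hr (tr M) (on k) (univ : Set M) (A ∩ L) n :=
    (resR subset_rfl inter_subset_left n).coprod (resR subset_rfl inter_subset_right n)
  let J : (Hr (tr M) (on k) (univ : Set M) A n × Hr (tr M) (on k) (univ : Set M) L n) →ₗ[k] k :=
    IA.coprod IL
  have hF : LinearMap.range F = ⊤ := by
    rw [LinearMap.range_eq_top]
    intro z
    obtain ⟨z1, z2, hz⟩ := decomp h2 cA cL (subset_univ _) (subset_univ _) n h0 z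
    exact ⟨(z1, z2), hz.symm⟩
  have hker : ∀ x, F x = 0 → J x = 0 := by
    rintro ⟨z1, z2⟩ hx
    have h1 : (resR subset_rfl inter_subset_left n z1 :
        Hr (tr M) (on k) (univ : Set M) (A ∩ L) n) = resR subset_rfl inter_subset_right n (-z2) := by
      rw [map_neg]
      exact eq_neg_of_add_eq_zero_left hx
    obtain ⟨y, hy1, hy2⟩ := glue_same h2 isCompact_univ cA cL (subset_univ _) (subset_univ _) n
      z1 (-z2) h1
    have h3 : y ∈ LinearMap.ker (IA ∘ₗ resR subset_rfl subset_union_left n -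
        IL ∘ₗ resR subset_rfl subset_union_right n) := by
      refine span_N e h2 hn loc (cA.union cL) _ (fun c hc δ hδ hb hs => ?_) y
      rw [LinearMap.mem_ker, LinearMap.sub_apply, LinearMap.comp_apply, LinearMap.comp_apply,
        resR_resR, resR_resR, hA c hc 0 δ hδ hb, hL c hc 0 δ hδ hb, sub_self]
    rw [LinearMap.mem_ker, LinearMap.sub_apply, LinearMap.comp_apply, LinearMap.comp_apply,
      hy1, hy2, map_neg, sub_neg_eq_add] at h3
    exact h3
  obtain ⟨s, hs⟩ := F.exists_rightInverse_of_surjective hF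
  have key : ∀ x, J (s (F x)) = J x := fun x => by
    rw [← sub_eq_zero, ← map_sub]
    apply hker
    rw [map_sub, sub_eq_zero]
    exact LinearMap.congr_fun hs (F x)
  refine ⟨J ∘ₗ s, fun c hc w η hη hb hs' => ?_⟩
  obtain ⟨h1, h3⟩ := ctr_box (c := c) hη hb
  have h4 : c.ψ w ∉ A ∩ L := fun h => notMem_A1 h1 (by rw [h3, sub_self, norm_zero]; exact hη)
    (hs' h)
  have h5 : ‖c.φ (c.ψ w)‖ < 2 := by rw [h3]; linarith
  rw [LinearMap.comp_apply]
  by_cases h6 : c.ψ w ∈ A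
  · obtain ⟨ζ, i1, i2, i3, i4⟩ := small_box cL.isClosed h1 h5 (fun h => h4 ⟨h6, h⟩) hη
    rw [h3] at i3 i4
    have i5 : ‖w - w‖ + ζ ≤ η := by rwa [sub_self, norm_zero, zero_add]
    have e1 : resR subset_rfl hs' n (gb e h2 c hη hb) =
        F (0, resR subset_rfl i4 n (gb e h2 c i1 i3)) := by
      rw [← gb_res e h2 i1 hη i5 hb i3 (A1_anti i5), resR_resR, LinearMap.coprod_apply, map_zero,
        zero_add, resR_resR]
    rw [e1, key, LinearMap.coprod_apply, map_zero, zero_add]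
    exact hL c hc w ζ i1 i3 i4
  · obtain ⟨ζ, i1, i2, i3, i4⟩ := small_box cA.isClosed h1 h5 h6 hη
    rw [h3] at i3 i4
    have i5 : ‖w - w‖ + ζ ≤ η := by rwa [sub_self, norm_zero, zero_add]
    have e1 : resR subset_rfl hs' n (gb e h2 c hη hb) =
        F (resR subset_rfl i4 n (gb e h2 c i1 i3), 0) := by
      rw [← gb_res e h2 i1 hη i5 hb i3 (A1_anti i5), resR_resR, LinearMap.coprod_apply, map_zero,
        add_zero, resR_resR]
    rw [e1, key, LinearMap.coprod_apply, map_zero, add_zero]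
    exact hA c hc w ζ i1 i3 i4

/-- A compatible system of numbers on the cubes of the family `P`. -/
structure Ori (P : Cub M n → Prop) (h2 : Ok k) (o : Cub M n → k) : Prop where
  ne : ∀ c, P c → o c ≠ 0
  cmp : ∀ (c c' : Cub M n) (_ : P c) (_ : P c') (w : Fin n → ℝ) (η : ℝ) (hη : 0 < η)
    (hb : ‖w‖ + η ≤ 2) (hs : c.A1 0 2 ⊆ c'.A1 w η),
    o c * cc e c two_pos h02 (resR subset_rfl hs n (gb e h2 c' hη hb)) = o c'

/-- The top class of a chart is not zero. -/
theorem lesA_gb_ne (h2 : Ok k) (hn : 1 ≤ n) (loc : LocP P) {o : Cub M n → k}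
    (ho : Ori e P h2 o) (c : Cub M n) (hcP : P c) :
    lesA k (univ : Set M) (c.A1 0 2) n (gb e h2 c two_pos h02) ≠ 0 := by
  classical
  have loc' := loc
  choose C hCP hC hC0 using loc
  have h01 : ‖(0 : Fin n → ℝ)‖ + 1 ≤ 2 := by rw [norm_zero]; norm_num
  have hcl : ∀ T : Finset M, IsCompact {a : M | ∀ b ∈ T, a ∈ (C b).A1 0 1} := by
    intro T
    have : {a : M | ∀ b ∈ T, a ∈ (C b).A1 0 1} = ⋂ b ∈ T, (C b).A1 0 1 := by
      ext a
      simp
    rw [this]
    exact (isClosed_biInter fun b _ => (compact_A1 h01).isClosed).isCompact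
  have hone : ∀ c : Cub M n, P c → Cns e P h2 o (c.A1 0 1) (o c • cc e c one_pos h01) := by
    intro c hc c' hc' w η hη hb hs
    have i1 : ‖(0 : Fin n → ℝ) - 0‖ + 1 ≤ 2 := by rwa [sub_zero]
    rw [LinearMap.smul_apply, smul_eq_mul, ← cc_res e one_pos two_pos i1 h02 h01 (A1_anti i1),
      resR_resR]
    exact ho.cmp c c' hc hc' w η hη hb _
  have main : ∀ T : Finset M, ∃ I : Hr (tr M) (on k) (univ : Set M)
      {a : M | ∀ b ∈ T, a ∈ (C b).A1 0 1} n →ₗ[k] k, Cns e P h2 o _ I := by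
    intro T
    induction T using Finset.induction_on with
    | empty =>
      refine ⟨0, fun c hc w η hη hb hs => ?_⟩
      obtain ⟨h1, h3⟩ := ctr_box (c := c) hη hb
      exact absurd (hs (show c.ψ w ∈ {a : M | ∀ b ∈ (∅ : Finset M), a ∈ (C b).A1 0 1} from
        fun b hb => absurd hb (Finset.notMem_empty b)))
        (notMem_A1 h1 (by rw [h3, sub_self, norm_zero]; exact hη))
    | insert b T hb ih =>
      obtain ⟨IL, hIL⟩ := ih
      obtain ⟨I, hI⟩ := cns_inter e h2 hn loc' (compact_A1 (c := C b) h01) (hcl T)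
        (noH_top' h2 hn one_le_two (hcl T)) (hone (C b) (hCP b)) hIL
      have e1 : {a : M | ∀ d ∈ insert b T, a ∈ (C d).A1 0 1} =
          (C b).A1 0 1 ∩ {a | ∀ d ∈ T, a ∈ (C d).A1 0 1} := by
        ext a
        simp
      rw [e1]
      exact ⟨I, hI⟩
  obtain ⟨T, hT⟩ := isCompact_univ.elim_nhds_subcover
    (fun b : M => {a | a ∈ (C b).D ∧ ‖(C b).φ a - 0‖ < 1}) fun b _ => by
      refine (isOpen_box h01).mem_nhds ⟨hC b, ?_⟩
      rw [hC0, sub_zero, norm_zero]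
      exact one_pos
  have hB : {a : M | ∀ b ∈ T, a ∈ (C b).A1 0 1} ⊆ (∅ : Set M) := by
    intro a ha
    obtain ⟨b, hb, hb'⟩ := mem_iUnion₂.1 (hT.2 (mem_univ a))
    exact absurd (ha b hb hb'.1) (not_le.2 hb'.2)
  obtain ⟨I, hI⟩ := main T
  intro h0
  have h1 := hI c hcP 0 2 two_pos h02 (hB.trans (empty_subset _))
  have e1 : resR subset_rfl (hB.trans (empty_subset _)) n (gb e h2 c two_pos h02) =
      resR subset_rfl hB n (lesA k (univ : Set M) (c.A1 0 2) n (gb e h2 c two_pos h02)) := by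
    rw [lesA, resR_resR]
  rw [e1, h0, map_zero, map_zero] at h1
  exact ho.ne c hcP h1.symm

/-- A non zero top class. -/
theorem exists_top_ne [Nonempty M] (h2 : Ok k) (hn : 1 ≤ n) (loc : LocP P) {o : Cub M n → k}
    (ho : Ori e P h2 o) : ∃ ω : Hr (tr M) (on k) (univ : Set M) ∅ n, ω ≠ 0 := by
  obtain ⟨b⟩ : Nonempty M := inferInstance
  obtain ⟨c, hc, -, -⟩ := loc b
  exact ⟨_, lesA_gb_ne e h2 hn loc ho c hc⟩

/-- The list form of a non zero class. -/
theorem exists_list {ω : Hr (tr M) (on k) (univ : Set M) ∅ n} (hω : ω ≠ 0) :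
    ∃ w : List M → k, Nrm w ∧ CocL (univ : Set M) n w ∧ ¬ ExL (univ : Set M) n w := by
  obtain ⟨w, hw, hN, h⟩ := exists_cls ((absE k (univ : Set M) n).symm ω)
  refine ⟨w, hN, hw, fun hex => hω ?_⟩
  rw [cls_eq_zero.2 hex] at h
  rw [← (absE k (univ : Set M) n).apply_symm_apply ω, ← h, map_zero]

/-- If `kˣ` is trivial every system of cubes is oriented. -/
theorem ori_one (h2 : Ok k) (hk : ∀ a : k, a ≠ 0 → a = 1) : Ori e P h2 fun _ => 1 := by
  refine ⟨fun _ _ => one_ne_zero, fun c c' _ _ w η hη hb hs => ?_⟩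
  rw [one_mul]
  apply hk
  obtain ⟨h1, h3⟩ := ctr_box (c := c') hη hb
  have h4 : c'.ψ w ∉ c'.A1 w η := notMem_A1 h1 (by rw [h3, sub_self, norm_zero]; exact hη)
  have h5 := of_notMem_A1 fun h => h4 (hs h)
  rw [sub_zero] at h5
  have h6 : ‖c'.φ (c'.ψ w)‖ < 2 := by rw [h3]; linarith
  have h7 : Trn e h2 c c' (c'.ψ w) (cc e c two_pos h02 (resR subset_rfl hs n (gb e h2 c' hη hb))) :=
    ⟨w, η, hη, hb, hs, h1, by rw [h3, sub_self, norm_zero]; exact hη, rfl⟩
  exact trn_ne e h2 h5.1 h5.2 h1 h6 h7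

/-- **(A4) for the field with two elements**: every closed manifold has a non exact top cocycle. -/
theorem exists_not_exL_two [Nonempty M] (hn : 1 ≤ n) (loc : LocEuc M n)
    (hk : ∀ a : k, a ≠ 0 → a = 1) :
    ∃ w : List M → k, Nrm w ∧ CocL (univ : Set M) n w ∧ ¬ ExL (univ : Set M) n w := by
  obtain ⟨e⟩ := cube_equiv (k := k) (ok k) n
  have loc' : LocP (M := M) (n := n) fun _ => True := fun x => by
    obtain ⟨c, h1, h2⟩ := loc x
    exact ⟨c, trivial, h1, h2⟩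
  obtain ⟨ω, hω⟩ := exists_top_ne e (ok k) hn loc' (ori_one e (ok k) hk)
  exact exists_list hω

end Vale.Agent.P260.H553
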