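import Vale.Agent.P260.H553.NZ

/-!
# P260, block [A4] : transition numbers are natural for local homeomorphisms
-/

set_option linter.all false

open Set Filter Topology

namespace Vale.Agent.P260.H553

open Vale.Agent.P216 Vale.Agent.P216.Ch2
open Vale.Agent.P216.D246 Vale.Agent.P216.Ch2.D246 Vale.Agent.P216.Ch2.D246.Cub

open Vale.Agent.P216.AS Vale.Agent.P216.Ch2.AS Vale.Agent.P216.H901 Vale.Agent.P216.Ch2.H901 Vale.Agent.P216.H83 Vale.Agent.P216.Ch2.H83 Vale.Agent.P216.Sl Vale.Agent.P216.PS Vale.Agent.P216.H133C Vale.Agent.P216.Ch2.H133C Vale.Agent.P216.C313 Vale.Agent.P216.Ch2.C313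

/-- The cube `d` of `N` lies over the cube `c` of `M`. -/
def Over {M N : Type} [TopologicalSpace M] [TopologicalSpace N] {n : ℕ} (π : N → M) (d : Cub N n)
    (c : Cub M n) : Prop := ∀ y, ‖y‖ ≤ 2 → π (d.ψ y) = c.ψ y

section Set

variable {M N : Type} [TopologicalSpace M] [TopologicalSpace N] {n : ℕ} {π : N → M} {d : Cub N n}
  {c : Cub M n}

theorem Over.eq (h : Over π d c) {x : N} (hx : x ∈ d.D) : π x = c.ψ (d.φ x) := by
  have := h (d.φ x) (d.φ_le x hx)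
  rwa [d.ψφ x hx] at this

theorem Over.mem (h : Over π d c) {x : N} (hx : x ∈ d.D) : π x ∈ c.D := by
  rw [h.eq hx]
  exact c.ψ_mem _ (d.φ_le x hx)

theorem Over.φ_eq (h : Over π d c) {x : N} (hx : x ∈ d.D) : c.φ (π x) = d.φ x := by
  rw [h.eq hx]
  exact c.φψ _ (d.φ_le x hx)

theorem Over.inj (h : Over π d c) {x y : N} (hx : x ∈ d.D) (hy : y ∈ d.D) (hxy : π x = π y) :
    x = y := by
  rw [← d.ψφ x hx, ← d.ψφ y hy, ← h.φ_eq hx, ← h.φ_eq hy, hxy]

end Set

variable {M N : Type} [MetricSpace M] [CompactSpace M] [MetricSpace N] [CompactSpace N] {n : ℕ}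
  {k : Type} [Field k] {π : N → M} {c c' : Cub M n} {d d' : Cub N n} {v w : Fin n → ℝ} {δ η : ℝ}

variable (e : Hr (tr (Unit × (Fin n → ℝ))) (on k) (cbE n (univ : Set Unit))
    (bdE n univ ∅) n ≃ₗ[k] k)

/-- The point of the cube `[0,1]^n` in the parametrisation of the box. -/
theorem th_apply (p : Unit × (Fin n → ℝ)) :
    th c v δ p = c.ψ (fun i => v i + δ * (2 * p.2 i - 1)) := rfl

/-- **Naturality**, for small boxes. -/
theorem nat_box (h2 : Ok k) (hd : Over π d c) (hd' : Over π d' c') (hδ : 0 < δ)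
    (hb : ‖w‖ + δ ≤ 2) (hs : c.A1 0 2 ⊆ c'.A1 w δ) (hs' : d.A1 0 2 ⊆ d'.A1 w δ)
    (hcl : ∀ y, ‖y - w‖ ≤ δ → d'.ψ y ∈ d.D) :
    cc e d two_pos h02 (resR subset_rfl hs' n (gb e h2 d' hδ hb)) =
      cc e c two_pos h02 (resR subset_rfl hs n (gb e h2 c' hδ hb)) := by
  -- the map
  set f : N → M := fun x => c.ψ (d.φ x) with hf
  have cd : IsCompact d.D := d.closed.isCompact
  have hfπ : ∀ x ∈ d.D, f x = π x := fun x hx => (hd.eq hx).symm
  have if0 : IsMap (tr N) (tr M) d.D univ f :=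
    isMap_of cd (c.ψ_cont.comp d.φ_cont fun x hx => d.φ_le x hx) (mapsTo_univ _ _)
  have mf : MapsTo f (d'.A1 w δ ∩ d.D) (c'.A1 w δ) := by
    rintro a ⟨ha', ha⟩ hD
    rw [hfπ a ha] at hD ⊢
    by_contra hcon
    rw [not_le] at hcon
    have hy : ‖c'.φ (π a)‖ ≤ 2 := c'.φ_le _ hD
    have h1 : π (d'.ψ (c'.φ (π a))) = π a := by rw [hd' _ hy, c'.ψφ _ hD]
    have h3 : d'.ψ (c'.φ (π a)) ∉ d'.A1 w δ :=
      notMem_A1 (d'.ψ_mem _ hy) (by rw [d'.φψ _ hy]; exact hcon)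
    have h4 := of_notMem_A1 fun h => h3 (hs' h)
    have h5 := hd.inj h4.1 ha h1
    rw [h5] at h3
    exact h3 ha'
  set x := gb e h2 c' hδ hb with hx
  have hU : (univ : Set N) = d'.A1 w δ ∪ d.D := by
    ext a
    refine ⟨fun _ => ?_, fun _ => mem_univ _⟩
    by_cases h : a ∈ d.D
    · exact Or.inr h
    · exact Or.inl (hs' fun hD => absurd hD h)
  have h1 := strong_excision (k := k) (χ := on k) (tw_tr h2 _) (compact_A1 (c := d') hb) cd
    (inv_tr _) (inv_tr _) hU rfl (subset_univ _) inter_subset_left n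
  obtain ⟨X, hX⟩ := h1.2 (pullR (on k) if0 inter_subset_right mf n x)
  -- the values of `X`
  have key : ∀ (b : Cub N n) (b' : Cub M n) (v : Fin n → ℝ) (ε : ℝ) (hε : 0 < ε)
      (hv : ‖v‖ + ε ≤ 2) (hO : Over π b b') (hm : ∀ y, ‖y - v‖ ≤ ε → b.ψ y ∈ d.D)
      (t : d'.A1 w δ ⊇ b.A1 v ε) (t' : c'.A1 w δ ⊇ b'.A1 v ε),
      cc e b hε hv (resR subset_rfl t n X) = cc e b' hε hv (resR subset_rfl t' n x) := by
    intro b b' v ε hε hv hO hm t t'
    have m1 : ∀ p ∈ cbE n (univ : Set Unit), th b v ε p ∈ d.D := by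
      rintro p hp
      exact hm _ (nrm_le hε.le hp.2)
    have i1 : IsMap (tr (Unit × (Fin n → ℝ))) (tr N) (cbE n univ) d.D (th b v ε) :=
      isMap_of (isCompact_cbE isCompact_univ) (isMap_cont (isMap_th (c := b) hε.le hv)) m1
    have m2 : MapsTo (th b v ε) (bdE n univ ∅) (d'.A1 w δ ∩ d.D) := fun p hp =>
      ⟨t (mapsTo_th hε.le hv hp), m1 p (bdE_sub hp)⟩
    have e1 : pullR (on k) (isMap_th (c := b) hε.le hv) bdE_sub (mapsTo_th hε.le hv) n
        (resR subset_rfl t n X) = pullR (on k) i1 bdE_sub m2 n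
          (resR (subset_univ _) inter_subset_left n X) := by
      obtain ⟨g, hg, rfl⟩ := H.exists_mk X
      rfl
    have e2 : pullR (on k) i1 bdE_sub m2 n (pullR (on k) if0 inter_subset_right mf n x) =
        pullR (on k) (isMap_th (c := b') hε.le hv) bdE_sub (mapsTo_th hε.le hv) n
          (resR subset_rfl t' n x) := by
      rw [← pullR_comp (χ := on k) if0 i1 bdE_sub inter_subset_right m2 mf x]
      have m3 : MapsTo (th b' v ε) (bdE n univ ∅) (c'.A1 w δ) := fun p hp =>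
        t' (mapsTo_th hε.le hv hp)
      have e3 : pullR (on k) (isMap_th (c := b') hε.le hv) bdE_sub (mapsTo_th hε.le hv) n
          (resR subset_rfl t' n x) =
          pullR (on k) (isMap_th (c := b') hε.le hv) bdE_sub m3 n x := by
        obtain ⟨g, hg, e0⟩ := H.exists_mk x
        rw [← e0]
        rfl
      rw [e3]
      refine LinearMap.congr_fun (pullR_congr _ _ _ _ _ fun p hp => ?_) x
      have h3 := m1 p hp
      have h4 : ‖(fun i => v i + ε * (2 * p.2 i - 1))‖ ≤ 2 := nrm_le2 hε.le hv hp.2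
      change f (th b v ε p) = th b' v ε p
      rw [hfπ _ h3, th_apply, th_apply]
      exact hO _ h4
    rw [hX] at e1
    change e _ = e _
    rw [← e2, ← e1]
  have k1 := key d' c' w δ hδ hb hd' hcl subset_rfl subset_rfl
  have hXgb : X = gb e h2 d' hδ hb := by
    apply (cc_bij e h2 hδ hb).1
    rw [cc_gb]
    have r1 : resR subset_rfl (subset_rfl : d'.A1 w δ ⊆ d'.A1 w δ) n X = X := Hinc_refl _ _ X
    have r2 : resR subset_rfl (subset_rfl : c'.A1 w δ ⊆ c'.A1 w δ) n x = x := Hinc_refl _ _ x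
    rw [r1, r2, hx, cc_gb] at k1
    exact k1
  have k2 := key d c 0 2 two_pos h02 hd (fun y hy => d.ψ_mem _ (by rwa [sub_zero] at hy)) hs' hs
  rw [← hXgb]
  exact k2

/-- **Naturality.** -/
theorem trn_over (h2 : Ok k) (hd : Over π d c) (hd' : Over π d' c') {b : N} (hb : b ∈ d.D)
    (hb' : ‖d.φ b‖ < 2) (hc : b ∈ d'.D) (hc' : ‖d'.φ b‖ < 2) {t : k}
    (h : Trn e h2 c c' (π b) t) : Trn e h2 d d' b t := by
  obtain ⟨η₁, i1, -, i3, i4⟩ := small_box (c := d') (compact_A1 (c := d) h02).isClosed hc hc'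
    (notMem_A1 hb (by rwa [sub_zero])) one_pos
  have hcM : π b ∈ c'.D := hd'.mem hc
  have hcM' : ‖c'.φ (π b)‖ < 2 := by rwa [hd'.φ_eq hc]
  obtain ⟨η₂, j1, -, j3, j4⟩ := small_box (c := c') (compact_A1 (c := c) h02).isClosed hcM hcM'
    (notMem_A1 (hd.mem hb) (by rwa [sub_zero, hd.φ_eq hb])) one_pos
  rw [hd'.φ_eq hc] at j3 j4
  set w := d'.φ b with hw
  have hδ : 0 < min η₁ η₂ / 2 := half_pos (lt_min i1 j1)
  have l1 : min η₁ η₂ / 2 < η₁ := by
    have := min_le_left η₁ η₂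
    linarith
  have l2 : min η₁ η₂ / 2 < η₂ := by
    have := min_le_right η₁ η₂
    linarith
  have l3 : ‖w‖ + min η₁ η₂ / 2 ≤ 2 := by linarith
  have s1 : d.A1 0 2 ⊆ d'.A1 w (min η₁ η₂ / 2) := i4.trans
    (A1_anti (by rw [sub_self, norm_zero, zero_add]; exact l1.le))
  have s2 : c.A1 0 2 ⊆ c'.A1 w (min η₁ η₂ / 2) := j4.trans
    (A1_anti (by rw [sub_self, norm_zero, zero_add]; exact l2.le))
  have s3 : ∀ y, ‖y - w‖ ≤ min η₁ η₂ / 2 → d'.ψ y ∈ d.D := by
    intro y hy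
    have hy2 : ‖y‖ ≤ 2 := by
      have := norm_le_norm_add_norm_sub' y w
      linarith
    have h3 : d'.ψ y ∉ d'.A1 w η₁ := notMem_A1 (d'.ψ_mem y hy2) (by
      rw [d'.φψ y hy2]
      exact hy.trans_lt l1)
    exact (of_notMem_A1 fun h => h3 (i4 h)).1
  have key := nat_box e h2 hd hd' hδ l3 s2 s1 s3
  have hT : Trn e h2 c c' (π b) (cc e c two_pos h02 (resR subset_rfl s2 n (gb e h2 c' hδ l3))) :=
    ⟨w, _, hδ, l3, s2, hcM, by rw [hd'.φ_eq hc, ← hw, sub_self, norm_zero]; exact hδ, rfl⟩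
  rw [trn_uniq e h2 h hT, ← key]
  exact ⟨w, _, hδ, l3, s1, hc, by rw [← hw, sub_self, norm_zero]; exact hδ, rfl⟩

end Vale.Agent.P260.H553
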